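import Crest.Agent.N255.Uc.Cov

/-!
# Row 255, block D (helper46): averaging functions on the group to continuous functions on `T`
-/

set_option autoImplicit false
open Set Filter Topology

noncomputable section

namespace Crest.Agent.N255.Uc

variable {G T : Type} [Group G] [TopologicalSpace T] [MulAction G T] {d : ℕ}

/-- an equivariant partition of unity -/
structure Pu (G T : Type) [Group G] [TopologicalSpace T] [MulAction G T] where
  χ : T → ℝ
  K : Set T
  cpt : IsCompact K
  cont : Continuous χ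
  act : ∀ g : G, Continuous fun x : T => g • x
  supp : ∀ x, χ x ≠ 0 → x ∈ K
  nn : ∀ x, 0 ≤ χ x
  lf : LocallyFinite fun g : G => {x : T | g⁻¹ • x ∈ K}
  sum : ∀ x, ∑ᶠ g : G, χ (g⁻¹ • x) = 1

theorem GM.lf (h : GM d G T) {K : Set T} (hK : IsCompact K) :
    LocallyFinite fun g : G => {x : T | g⁻¹ • x ∈ K} := by
  have := h.lc
  intro x
  obtain ⟨N, hN, hx⟩ := exists_compact_mem_nhds x
  exact ⟨N, hx, (h.fin_meet hN hK).subset fun g ⟨y, h1, h2⟩ => ⟨y, h2, h1⟩⟩

theorem GM.exists_pu (h : GM d G T) : Nonempty (Pu G T) := by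
  have := h.lc
  have := h.t2
  have := h.cont
  obtain ⟨K, hK, hc⟩ := h.cocpt
  obtain ⟨b, h1, -, h2, h3⟩ := exists_continuous_one_zero_of_isCompact hK isClosed_empty
    (disjoint_empty _)
  have hlf := h.lf h2.isCompact
  have hlf' : LocallyFinite fun g : G => Function.support fun x : T => b (g⁻¹ • x) :=
    hlf.subset fun g x hx => subset_tsupport _ hx
  set S : T → ℝ := fun x => ∑ᶠ g : G, b (g⁻¹ • x) with hS
  have hfin : ∀ x : T, (Function.support fun g : G => b (g⁻¹ • x)).Finite := fun x =>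
    hlf'.point_finite x
  have hSc : Continuous S :=
    continuous_finsum (fun g => b.continuous.comp (continuous_const_smul _)) hlf'
  have hSp : ∀ x, 0 < S x := fun x => by
    obtain ⟨g, hg⟩ := hc x
    exact finsum_pos (fun g => (h3 _).1) ⟨g⁻¹, by rw [inv_inv, h1 hg]; exact one_pos⟩ (hfin x)
  have hSi : ∀ (g : G) x, S (g • x) = S x := fun g x => by
    simp only [hS]
    rw [← finsum_comp_equiv (Equiv.mulLeft g)]
    simp [mul_smul]
  refine ⟨⟨fun x => b x / S x, tsupport b, h2.isCompact, b.continuous.div hSc fun x => (hSp x).ne',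
    fun g => continuous_const_smul g, fun x hx => subset_tsupport _ fun h0 => hx (by simp [h0]),
    fun x => div_nonneg (h3 x).1 (hSp x).le, hlf, fun x => ?_⟩⟩
  simp only [hSi, div_eq_mul_inv]
  rw [← finsum_mul]
  exact mul_inv_cancel₀ (hSp x).ne'

namespace Pu

variable (P : Pu G T)

/-- the labels of a point -/
def lab (x : T) : Set G := {g | g⁻¹ • x ∈ P.K}

theorem lab_finite (x : T) : (P.lab x).Finite := P.lf.point_finite x

theorem mem_lab_smul (h g : G) (x : T) : h * g ∈ P.lab (h • x) ↔ g ∈ P.lab x := by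
  simp [lab, mul_smul]

theorem mem_lab {x : T} {g : G} (h : P.χ (g⁻¹ • x) ≠ 0) : g ∈ P.lab x := P.supp _ h

theorem exists_ne (x : T) : ∃ g : G, P.χ (g⁻¹ • x) ≠ 0 := by
  by_contra! h
  have := P.sum x
  simp [h] at this

theorem lab_nonempty (x : T) : (P.lab x).Nonempty :=
  let ⟨g, h⟩ := P.exists_ne x
  ⟨g, P.mem_lab h⟩

theorem mem_sat {x : T} {S : Set G} : x ∈ sat S P.K ↔ (S ∩ P.lab x).Nonempty := Iff.rfl

/-- the labels can only drop nearby -/
theorem lab_eventually [T2Space T] (x : T) : ∀ᶠ y in 𝓝 x, P.lab y ⊆ P.lab x := by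
  filter_upwards [P.lf.eventually_subset
    (fun g => P.cpt.isClosed.preimage (P.act g⁻¹)) x] with y hy
  exact hy

variable {V : Type} [NormedAddCommGroup V] [NormedSpace ℝ V]

theorem lf' (H : G → V) : LocallyFinite fun g : G => Function.support fun x : T =>
    P.χ (g⁻¹ • x) • H g :=
  P.lf.subset fun _ _ hx => P.mem_lab (left_ne_zero_of_smul hx)

/-- the average of `H` -/
def av (H : G → V) : C(T, V) :=
  ⟨fun x => ∑ᶠ g : G, P.χ (g⁻¹ • x) • H g,
    continuous_finsum (fun g => (P.cont.comp (P.act g⁻¹)).smul continuous_const) (P.lf' H)⟩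

theorem av_eq (H : G → V) (x : T) {s : Finset G} (hs : P.lab x ⊆ s) :
    P.av H x = ∑ g ∈ s, P.χ (g⁻¹ • x) • H g :=
  finsum_eq_sum_of_support_subset _ fun _ hg => hs (P.mem_lab (left_ne_zero_of_smul hg))

theorem sum_eq (x : T) {s : Finset G} (hs : P.lab x ⊆ s) : ∑ g ∈ s, P.χ (g⁻¹ • x) = 1 := by
  rw [← P.sum x]
  exact (finsum_eq_sum_of_support_subset _ fun _ hg => hs (P.mem_lab hg)).symm

theorem lab_sub (x : T) : P.lab x ⊆ (P.lab_finite x).toFinset := by simp

theorem av_congr {H H' : G → V} {x : T} (h : ∀ g ∈ P.lab x, H g = H' g) : P.av H x = P.av H' x := by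
  rw [P.av_eq H x (P.lab_sub x), P.av_eq H' x (P.lab_sub x)]
  exact Finset.sum_congr rfl fun g hg => by rw [h g (by simpa using hg)]

theorem av_const (a : V) (x : T) : P.av (fun _ => a) x = a := by
  rw [P.av_eq _ x (P.lab_sub x), ← Finset.sum_smul, P.sum_eq x (P.lab_sub x), one_smul]

theorem av_add (H H' : G → V) (x : T) : P.av (fun g => H g + H' g) x = P.av H x + P.av H' x := by
  simp only [P.av_eq _ x (P.lab_sub x), smul_add, Finset.sum_add_distrib]

theorem av_sub (H H' : G → V) (x : T) : P.av (fun g => H g - H' g) x = P.av H x - P.av H' x := by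
  simp only [P.av_eq _ x (P.lab_sub x), smul_sub, Finset.sum_sub_distrib]

theorem av_smul (a : ℝ) (H : G → V) (x : T) : P.av (fun g => a • H g) x = a • P.av H x := by
  simp only [P.av_eq _ x (P.lab_sub x), Finset.smul_sum, smul_comm a]

theorem av_one_sub (H : G → ℝ) (x : T) : P.av (fun g => 1 - H g) x = 1 - P.av H x := by
  rw [P.av_sub, P.av_const]

/-- equivariance -/
theorem av_act (H : G → V) (h : G) (x : T) : P.av H (h • x) = P.av (fun g => H (h * g)) x := by
  change ∑ᶠ g : G, _ = ∑ᶠ g : G, _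
  rw [← finsum_comp_equiv (Equiv.mulLeft h)]
  simp [mul_smul]

theorem av_act' {H H' : G → V} {h : G} (e : ∀ g, H' (h * g) = H g) (x : T) :
    P.av H' (h • x) = P.av H x := by
  rw [P.av_act]; exact P.av_congr fun g _ => e g

theorem av_mem {H : G → V} {x : T} {C : Set V} (hC : Convex ℝ C) (h : ∀ g ∈ P.lab x, H g ∈ C) :
    P.av H x ∈ C := by
  rw [P.av_eq H x (P.lab_sub x)]
  exact hC.sum_mem (fun g _ => P.nn _) (P.sum_eq x (P.lab_sub x)) fun g hg => h g (by simpa using hg)

theorem av_mono {H H' : G → ℝ} {x : T} (h : ∀ g ∈ P.lab x, H g ≤ H' g) : P.av H x ≤ P.av H' x := by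
  have := P.av_mem (H := fun g => H' g - H g) (x := x) (convex_Ici 0) fun g hg => sub_nonneg.2 (h g hg)
  rwa [P.av_sub, mem_Ici, sub_nonneg] at this

theorem le_av {H : G → ℝ} {x : T} {a : ℝ} (h : ∀ g ∈ P.lab x, a ≤ H g) : a ≤ P.av H x :=
  P.av_mem (convex_Ici a) h

theorem av_le {H : G → ℝ} {x : T} {a : ℝ} (h : ∀ g ∈ P.lab x, H g ≤ a) : P.av H x ≤ a :=
  P.av_mem (convex_Iic a) h

theorem lt_av {H : G → ℝ} {x : T} {a : ℝ} (h : ∀ g ∈ P.lab x, a < H g) : a < P.av H x :=
  P.av_mem (convex_Ioi a) h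

theorem av_lt {H : G → ℝ} {x : T} {a : ℝ} (h : ∀ g ∈ P.lab x, H g < a) : P.av H x < a :=
  P.av_mem (convex_Iio a) h

theorem exists_lt {H : G → ℝ} {x : T} {a : ℝ} (h : a < P.av H x) : ∃ g ∈ P.lab x, a < H g := by
  by_contra! h'
  exact (P.av_le h').not_gt h

theorem exists_gt {H : G → ℝ} {x : T} {a : ℝ} (h : P.av H x < a) : ∃ g ∈ P.lab x, H g < a := by
  by_contra! h'
  exact (P.le_av h').not_gt h

theorem abs_av_sub {H : G → ℝ} {x : T} {a c : ℝ} (h : ∀ g ∈ P.lab x, |H g - a| ≤ c) :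
    |P.av H x - a| ≤ c := by
  rw [abs_le]
  have h1 := P.le_av (H := H) (x := x) (a := a - c) fun g hg => by linarith [(abs_le.1 (h g hg)).1]
  have h2 := P.av_le (H := H) (x := x) (a := a + c) fun g hg => by linarith [(abs_le.1 (h g hg)).2]
  constructor <;> linarith

/-- nested level functions stay nested -/
theorem av_nest {H H' : G → ℝ} {c : ℝ} (h : ∀ g, H' g + c ≤ H g) (x : T) :
    P.av H' x + c ≤ P.av H x := by
  have := P.av_mono (H := fun g => H' g + c) (H' := H) (x := x) fun g _ => h g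
  rwa [P.av_add, P.av_const] at this

/-- proper functions average to proper functions -/
theorem isCompact_le [T2Space T] {H : G → ℝ} (h : ∀ a, {g | H g ≤ a}.Finite) (a : ℝ) :
    IsCompact {x | P.av H x ≤ a} := by
  have : ContinuousConstSMul G T := ⟨P.act⟩
  refine (isCompact_sat (h a) P.cpt).of_isClosed_subset
    (isClosed_le (P.av H).continuous continuous_const) fun x hx => ?_
  by_contra h'
  refine (P.lt_av fun g hg => ?_).not_ge hx
  by_contra! h2
  exact h' ⟨g, h2, hg⟩

/-- sub- and superlevel sets between saturated sets -/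
theorem lt_subset_sat (H : G → ℝ) (a : ℝ) : {x | a < P.av H x} ⊆ sat {g | a < H g} P.K :=
  fun _ hx => let ⟨g, h1, h2⟩ := P.exists_lt hx; ⟨g, h2, h1⟩

theorem sat_subset_lt {H : G → ℝ} {c : ℝ} (hc : ∀ x, ∀ g ∈ P.lab x, ∀ g' ∈ P.lab x, H g - c ≤ H g')
    (a : ℝ) : sat {g | a + c < H g} P.K ⊆ {x | a < P.av H x} := by
  rintro x ⟨g, h1, h2⟩
  refine P.lt_av fun g' hg' => ?_
  have := hc x g h2 g' hg'
  have h1 : a + c < H g := h1
  linarith

/-- two labels of one point differ by an element of a fixed finite set -/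
theorem finite_diff : {s : G | ∃ x, ∃ g ∈ P.lab x, g * s ∈ P.lab x}.Finite := by
  refine (P.lf.finite_nonempty_inter_compact P.cpt).subset ?_
  rintro s ⟨x, g, h1, h2⟩
  exact ⟨g⁻¹ • x, by simpa [lab, mul_smul] using h2, h1⟩

end Pu

end Crest.Agent.N255.Uc

end
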