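import Crest.Agent.N255.Uc.Cov
import Crest.Agent.N255.Wi.All
import Crest.Agent.N255.Gs.Wc

/-!
# Row 255, block D (helper89): shadows of singular simplices in a `G`-manifold
-/

set_option autoImplicit false
open Set Filter Topology Pointwise

noncomputable section

namespace Crest.Agent.N255.Uc

open Crest.Agent.N255.Tp

variable {G T : Type} [Group G] [TopologicalSpace T] [MulAction G T] {d n : ℕ}

/-- the shadow of a set: all `g` such that it meets `g • K` -/
def shs (G : Type) {T : Type} [Group G] [MulAction G T] (K A : Set T) : Set G :=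
  {g | ∃ x ∈ A, g⁻¹ • x ∈ K}

/-- the shadow of a simplex -/
def sh (G : Type) {T : Type} [Group G] [TopologicalSpace T] [MulAction G T] (K : Set T) {n : ℕ}
    (σ : Sx n T) : Set G := shs G K (range σ)

omit [TopologicalSpace T] in
theorem shs_mono {K A B : Set T} (h : A ⊆ B) : shs G K A ⊆ shs G K B :=
  fun _ ⟨x, hx, h'⟩ => ⟨x, h hx, h'⟩

theorem mem_sh {K : Set T} {σ : Sx n T} {g : G} : g ∈ sh G K σ ↔ ∃ t, g⁻¹ • σ t ∈ K :=
  ⟨fun ⟨_, ⟨t, rfl⟩, h⟩ => ⟨t, h⟩, fun ⟨t, h⟩ => ⟨_, ⟨t, rfl⟩, h⟩⟩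

theorem sh_sub {K : Set T} {m : ℕ} (σ : Sx n T) (v : Fin (m + 1) → Fin (n + 1)) :
    sh G K (sub σ v) ⊆ sh G K σ := shs_mono (range_sub σ v)

theorem sh_fc {K : Set T} (σ : Sx (n + 1) T) (i : Fin (n + 2)) : sh G K (fc σ i) ⊆ sh G K σ :=
  sh_sub σ _

theorem sh_nonempty {K : Set T} (hc : ∀ x, ∃ g : G, g⁻¹ • x ∈ K) (σ : Sx n T) :
    (sh G K σ).Nonempty := by
  obtain ⟨g, hg⟩ := hc (σ (stdSimplex.vertex 0))
  exact ⟨g, mem_sh.2 ⟨_, hg⟩⟩

theorem smul_sx [ContinuousConstSMul G T] (g : G) (σ : Sx n T) : g • σ = (tr g).comp σ := rfl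

theorem mem_sh_smul [ContinuousConstSMul G T] {K : Set T} (g h : G) (σ : Sx n T) :
    g * h ∈ sh G K (g • σ) ↔ h ∈ sh G K σ := by
  simp only [mem_sh, ContinuousMap.smul_apply, smul_smul, mul_inv_rev, inv_mul_cancel_right]

theorem sh_smul [ContinuousConstSMul G T] {K : Set T} (g : G) (σ : Sx n T) :
    sh G K (g • σ) = (g * ·) '' sh G K σ := by
  ext h
  constructor
  · intro hh
    refine ⟨g⁻¹ * h, (mem_sh_smul g _ σ).1 ?_, mul_inv_cancel_left g h⟩
    rwa [mul_inv_cancel_left]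
  · rintro ⟨h, hh, rfl⟩
    exact (mem_sh_smul g h σ).2 hh

theorem push_tr_single [ContinuousConstSMul G T] {k : Type} [CommRing k] (g : G) (c : Ch k n T) :
    push k (tr g) c = Finsupp.mapDomain (g • ·) c := rfl

theorem fc_smul [ContinuousConstSMul G T] (g : G) (σ : Sx (n + 1) T) (i : Fin (n + 2)) :
    fc (g • σ) i = g • fc σ i := rfl

theorem bd_smul [ContinuousConstSMul G T] {k : Type} [CommRing k] (g : G) (σ : Sx (n + 1) T) :
    bd k (sg k (g • σ)) = Finsupp.mapDomain (g • ·) (bd k (sg k σ)) := by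
  rw [← push_tr_single, ← bd_push, push_sg]; rfl

/-- simplices with shadow in `S` -/
def Wd (K : Set T) (S : Set G) : Sb T :=
  ⟨fun _ => {σ | sh G K σ ⊆ S}, fun _ σ i h => (sh_fc σ i).trans h⟩

theorem mem_Wd {K : Set T} {S : Set G} {σ : Sx n T} : σ ∈ (Wd K S).S n ↔ sh G K σ ⊆ S := Iff.rfl

theorem Wd_mono {K : Set T} {S S' : Set G} (h : S ⊆ S') : (Wd K S).Le (Wd K S') :=
  fun _ _ hσ => Subset.trans hσ h

/-- the open (for `K` compact) set of points with shadow in `S` -/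
def cor (K : Set T) (S : Set G) : Set T := {x | ∀ g : G, g⁻¹ • x ∈ K → g ∈ S}

theorem Wd_eq (K : Set T) (S : Set G) : Wd K S = On (cor K S) := by
  unfold Wd On
  congr 1
  funext n
  ext σ
  exact ⟨fun h _ ⟨t, e⟩ g hg => h ⟨_, ⟨t, e⟩, hg⟩, fun h g ⟨x, hx, hg⟩ => h hx g hg⟩

omit [TopologicalSpace T] in
theorem cor_sub_sat {K : Set T} (hc : ∀ x, ∃ g : G, g⁻¹ • x ∈ K) (S : Set G) :
    cor K S ⊆ sat S K := fun x hx => by
  obtain ⟨g, hg⟩ := hc x
  exact ⟨g, hx g hg, hg⟩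

omit [TopologicalSpace T] in
theorem sub_cor (K A : Set T) : A ⊆ cor K (shs G K A) := fun x hx _ hg => ⟨x, hx, hg⟩

omit [TopologicalSpace T] in
theorem cor_mono {K : Set T} {S S' : Set G} (h : S ⊆ S') : cor K S ⊆ cor K S' :=
  fun _ hx g hg => h (hx g hg)

omit [TopologicalSpace T] in
theorem compl_cor (K : Set T) (S : Set G) : (cor K S)ᶜ = sat Sᶜ K := by
  ext x
  simp only [cor, sat, mem_compl_iff, mem_ofPred_eq, not_forall, exists_prop]
  exact ⟨fun ⟨g, h1, h2⟩ => ⟨g, h2, h1⟩, fun ⟨g, h1, h2⟩ => ⟨g, h2, h1⟩⟩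

omit [TopologicalSpace T] in
/-- `sat S K ⊆ cor K (S * N)` with `N` the set of neighbours of `K` -/
theorem sat_sub_cor (K L : Set T) (S : Set G) : sat S L ⊆ cor K (S * shs G K L) := by
  rintro x ⟨g, hg, hx⟩ h hh
  exact ⟨g, hg, g⁻¹ * h, ⟨_, hx, by simpa [smul_smul] using hh⟩, mul_inv_cancel_left g h⟩

theorem Wd_le_On {K : Set T} (hc : ∀ x, ∃ g : G, g⁻¹ • x ∈ K) (S : Set G) :
    (Wd K S).Le (On (sat S K)) := by
  rw [Wd_eq]; exact On_le (cor_sub_sat hc S)

theorem On_le_Wd (K A : Set T) : (On A).Le (Wd K (shs G K A)) := by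
  rw [Wd_eq]; exact On_le (sub_cor K A)

namespace GM

variable (h : GM d G T) {K : Set T}
include h

theorem shs_finite (hK : IsCompact K) {A : Set T} (hA : IsCompact A) : (shs G K A).Finite :=
  h.fin_meet hA hK

theorem sh_finite (hK : IsCompact K) (σ : Sx n T) : (sh G K σ).Finite :=
  h.shs_finite hK (isCompact_range σ.continuous)

theorem free_sx (g : G) (σ : Sx n T) (e : haveI := h.cont; g • σ = σ) : g = 1 :=
  h.free g (σ (stdSimplex.vertex 0)) (congrArg (fun τ : Sx n T => τ (stdSimplex.vertex 0)) e)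

theorem acy' (k : Type) [CommRing k] : Acy k (univ : Set T) univ := h.acy Gs.wcS_holds k

/-- arbitrary unions of translates of a compact set are closed -/
theorem isClosed_sat (hK : IsCompact K) (S : Set G) : IsClosed (sat S K) := by
  have := h.lc
  have := h.t2
  have := h.cont
  refine isClosed_of_closure_subset fun x hx => ?_
  obtain ⟨N, hN, hxN⟩ := exists_compact_mem_nhds x
  have h1 : IsClosed (sat (S ∩ shs G K N) K) :=
    (isCompact_sat ((h.shs_finite hK hN).inter_of_right S) hK).isClosed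
  refine sat_mono inter_subset_left Subset.rfl (h1.closure_subset ?_)
  rw [mem_closure_iff_nhds] at hx ⊢
  intro V hV
  obtain ⟨y, ⟨hyV, hyN⟩, g, hg, hy⟩ := hx (V ∩ N) (inter_mem hV hxN)
  exact ⟨y, hyV, g, ⟨hg, y, hyN, hy⟩, hy⟩

theorem isOpen_cor (hK : IsCompact K) (S : Set G) : IsOpen (cor K S) := by
  rw [← isClosed_compl_iff, compl_cor]; exact h.isClosed_sat hK _

/-- uniform acyclicity in terms of shadows -/
theorem uac (hK : IsCompact K) (hc : ∀ x, ∃ g : G, g⁻¹ • x ∈ K) (k : Type) [Field k] (n : ℕ)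
    {S : Set G} (hS : S.Finite) : ∃ S' : Set G, S'.Finite ∧ S ⊆ S' ∧
      (Wd K S).ch k n ⊓ rcyc k T n ≤ (Wd K S').B k n := by
  have := h.cont
  obtain ⟨_⟩ := h.chart
  have := h.t2
  obtain ⟨L, hL, h1⟩ := Wi.unifS_holds k d T (h.acy' k) _ (isCompact_sat hS hK) n
  refine ⟨S ∪ shs G K L, hS.union (h.shs_finite hK hL), subset_union_left, ?_⟩
  exact (inf_le_inf_right _ (Sb.ch_mono (Wd_le_On hc S))).trans
    (h1.trans (Sb.B_mono ((On_le_Wd K L).trans (Wd_mono subset_union_right))))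

end GM

end Crest.Agent.N255.Uc

end
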